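import Vale.Agent.P073.Bdl.B6

/-!
# P073: compositions of locally bi-Lipschitz homeomorphisms of local linear distortion less than
`√5`, of directionally monotone ones and of one Sobolev homeomorphism satisfying a convex cone
condition are diffeomorphically approximable, for every exponent
-/

namespace Vale.Agent.Results.P073.Composite

open Vale.Agent.P073.St

/-- Let `1 ≤ p < ∞`, let `b : Ω → Λ` be in the class `Generated` and let `m : Λ → Ξ` be a
`W^{1,p}_loc` homeomorphism satisfying the convex cone condition. If `f = m ∘ b` belongs to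
`W^{1,p}(Ω)`, then `f` is diffeomorphically approximable in `W^{1,p}`. -/
theorem result (p : ℝ) (hp : 1 ≤ p) (Ω Λ Ξ : Set V) (hΞ : IsBoundedDomain Ξ) (b m : V → V)
    (hb : Generated Ω Λ b) (hm : IsHomeo Λ Ξ m) (M : V → Mat) (hM : IsLocSobolev p Λ m M)
    (hC : ConeCondition Λ Ξ m M) (F : V → Mat) (hF : IsSobolev p Ω (fun x => m (b x)) F) :
    DiffeoApproximable p Ω Ξ (fun x => m (b x)) F :=
  Vale.Agent.P073.st_comp_approximable hp hb hΞ hm hM hC hF

end Vale.Agent.Results.P073.Composite
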